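import Vale.Agent.P016.R2.H963.Tuple

/-! # P016: tuples of prime bases from the weighted theorem for one base -/

namespace Vale.Agent.P016.FE.H250

open Finset

/-- `a` is a primitive root modulo the prime `p`. -/
def Root (p : ℕ) (a : ℤ) : Prop := ¬ (p : ℤ) ∣ a ∧ orderOf (a : ZMod p) = p - 1

/-- `φ(p-1)/(p-1)`. -/
noncomputable def wgt (p : ℕ) : ℝ := (Nat.totient (p - 1) : ℝ) / ((p - 1 : ℕ) : ℝ)

lemma wgt_mem (p : ℕ) : 0 ≤ wgt p ∧ wgt p ≤ 1 := by
  unfold wgt
  refine ⟨by positivity, div_le_one_of_le₀ ?_ (Nat.cast_nonneg _)⟩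
  exact_mod_cast Nat.totient_le _

open Classical in
lemma sum_tuple {r : ℕ} (S : Finset ℕ) (u w : ℕ → ℝ) (R : ℕ → Fin r → Prop) :
    ∑ p ∈ S, u p * (∏ i, (if R p i then (1 : ℝ) else 0) - w p ^ r) =
      ∑ p ∈ S.filter (fun p => ∀ i, R p i), u p - ∑ p ∈ S, u p * w p ^ r := by
  rw [Finset.sum_filter, ← Finset.sum_sub_distrib]
  refine Finset.sum_congr rfl fun p _ => ?_
  rw [Finset.prod_boole]
  by_cases h : ∀ i, R p i
  · rw [if_pos h, if_pos (fun i _ => h i)]
    ring
  · rw [if_neg h, if_neg (fun h' => h fun i => h' i (Finset.mem_univ i))]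
    ring

open Classical in
/-- Tuples of primes `q i ≤ Y` from the weighted theorem for one prime `q ≤ Y`. -/
theorem tuple_of_weighted (x Y : ℕ) (m : ℤ) (Delta B : ℝ) (hB : 0 ≤ B)
    (H : ∀ u : ℕ → ℝ, (∀ p, 0 ≤ u p ∧ u p ≤ 1) →
      (((Finset.range (Y + 1)).filter (fun q : ℕ => q.Prime ∧
        Delta < |∑ p ∈ (Finset.range (x + 1)).filter Nat.Prime,
          u p * ((if Root p (m * q) then (1 : ℝ) else 0) - wgt p)|)).card : ℝ) ≤ B)
    (r : ℕ) (u : ℕ → ℝ) (hu : ∀ p, 0 ≤ u p ∧ u p ≤ 1) :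
    (((Fintype.piFinset (fun _ : Fin r => (Finset.range (Y + 1)).filter Nat.Prime)).filter
      (fun q => (r : ℝ) * Delta <
        |∑ p ∈ (Finset.range (x + 1)).filter (fun p => p.Prime ∧ ∀ i, Root p (m * q i)), u p -
          ∑ p ∈ (Finset.range (x + 1)).filter Nat.Prime, u p * wgt p ^ r|)).card : ℝ) ≤
      (r : ℝ) * (((Finset.range (Y + 1)).filter Nat.Prime).card : ℝ) ^ (r - 1) * B := by
  have key := tuples (A := (Finset.range (Y + 1)).filter Nat.Prime)
    ((Finset.range (x + 1)).filter Nat.Prime)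
    (fun p q => if Root p (m * q) then (1 : ℝ) else 0)
    (fun p q => by
      split_ifs
      · exact ⟨zero_le_one, le_rfl⟩
      · exact ⟨le_rfl, zero_le_one⟩)
    wgt wgt_mem B Delta hB
    (fun u hu => by
      have h1 := H u hu
      rw [Finset.filter_filter]
      exact h1) r u hu
  refine le_trans (le_of_eq ?_) key
  congr 2
  apply Finset.filter_congr
  intro q _
  have h1 := sum_tuple ((Finset.range (x + 1)).filter Nat.Prime) u wgt
    (fun p i => Root p (m * q i))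
  rw [Finset.filter_filter] at h1
  rw [← h1]

end Vale.Agent.P016.FE.H250
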