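import Mathlib.Order.Filter.Ultrafilter.Basic
import Mathlib.Order.Filter.AtTopBot.Basic
import Mathlib.Data.Finset.Card
import Mathlib.Data.Fintype.Card
import Mathlib.Tactic

/-!
# One fixed exceptional set (compactness)

If every finite subset `F` of `T` and every finite `G` outside `T` has at most `K` exceptions,
then at most `K` exceptions work for all `F`, `G` at once.
-/

open Filter

namespace Vale.Agent.P016.H963

/-- a limit of sets with at most `K` elements along an ultrafilter has at most `K` elements -/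
theorem limit_card {ι α : Type*} [DecidableEq α] (U : Ultrafilter ι) (E : ι → Finset α) (K : ℕ)
    (hE : ∀ i, (E i).card ≤ K) :
    ∃ E₀ : Finset α, E₀.card ≤ K ∧ ∀ a : α, a ∈ E₀ ↔ ∀ᶠ i in (U : Filter ι), a ∈ E i := by
  classical
  have hcard : ∀ s : Finset α, (∀ a ∈ s, ∀ᶠ i in (U : Filter ι), a ∈ E i) → s.card ≤ K := by
    intro s hs
    have h1 : ∀ᶠ i in (U : Filter ι), ∀ a ∈ s, a ∈ E i := (Finset.eventually_all s).2 hs
    obtain ⟨i, hi⟩ := h1.exists
    exact (Finset.card_le_card hi).trans (hE i)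
  have hfin : {a : α | ∀ᶠ i in (U : Filter ι), a ∈ E i}.Finite := by
    by_contra hinf
    obtain ⟨s, hs, hsc⟩ := Set.Infinite.exists_subset_card_eq (s := _) hinf (K + 1)
    have := hcard s (fun a ha => hs ha)
    omega
  refine ⟨hfin.toFinset, hcard _ (fun a ha => by simpa using ha), fun a => by simp⟩

theorem compact {K : ℕ} (S : Finset ℕ → Finset ℕ → Prop)
    (hS : ∀ F F' G G' : Finset ℕ, F' ⊆ F → G' ⊆ G → S F G → S F' G')
    (T W : Set ℕ)
    (h : ∀ F G : Finset ℕ, (F : Set ℕ) ⊆ T → (G : Set ℕ) ⊆ W →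
      ∃ E : Finset ℕ, E ⊆ F ∧ E.card ≤ K ∧ S (F \ E) G) :
    ∃ E : Finset ℕ, (E : Set ℕ) ⊆ T ∧ E.card ≤ K ∧
      ∀ F G : Finset ℕ, (F : Set ℕ) ⊆ T → Disjoint F E → (G : Set ℕ) ⊆ W → S F G := by
  classical
  set FF : ℕ → Finset ℕ := fun n => (Finset.range n).filter (fun l => l ∈ T) with hFF
  set GG : ℕ → Finset ℕ := fun n => (Finset.range n).filter (fun l => l ∈ W) with hGG
  have hFT : ∀ n, ((FF n : Finset ℕ) : Set ℕ) ⊆ T := by
    intro n l hl
    exact (Finset.mem_filter.1 (Finset.mem_coe.1 hl)).2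
  have hGW : ∀ n, ((GG n : Finset ℕ) : Set ℕ) ⊆ W := by
    intro n l hl
    exact (Finset.mem_filter.1 (Finset.mem_coe.1 hl)).2
  choose E hE1 hE2 hE3 using fun n => h (FF n) (GG n) (hFT n) (hGW n)
  set U : Ultrafilter ℕ := Filter.hyperfilter ℕ with hU
  have hUtop : (U : Filter ℕ) ≤ atTop := by
    have := Filter.hyperfilter_le_cofinite (α := ℕ)
    rwa [Nat.cofinite_eq_atTop] at this
  obtain ⟨E₀, hc, hmem⟩ := limit_card U E K hE2
  refine ⟨E₀, ?_, hc, ?_⟩
  · intro a ha
    obtain ⟨n, hn⟩ := ((hmem a).1 (Finset.mem_coe.1 ha)).exists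
    exact hFT n (Finset.mem_coe.2 (hE1 n hn))
  · intro F G hF hdis hG
    have e1 : ∀ᶠ n in (U : Filter ℕ), F ⊆ FF n := by
      refine hUtop ?_
      filter_upwards [eventually_gt_atTop (F.sup id)] with n hn l hl
      refine Finset.mem_filter.2 ⟨Finset.mem_range.2 (lt_of_le_of_lt ?_ hn), hF (Finset.mem_coe.2 hl)⟩
      exact Finset.le_sup (f := id) hl
    have e2 : ∀ᶠ n in (U : Filter ℕ), G ⊆ GG n := by
      refine hUtop ?_
      filter_upwards [eventually_gt_atTop (G.sup id)] with n hn l hl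
      refine Finset.mem_filter.2 ⟨Finset.mem_range.2 (lt_of_le_of_lt ?_ hn), hG (Finset.mem_coe.2 hl)⟩
      exact Finset.le_sup (f := id) hl
    have e3 : ∀ᶠ n in (U : Filter ℕ), ∀ l ∈ F, l ∉ E n := by
      refine (Finset.eventually_all F).2 ?_
      intro l hl
      have h1 : l ∉ E₀ := Finset.disjoint_left.1 hdis hl
      rw [hmem l] at h1
      exact Ultrafilter.eventually_not.2 h1
    obtain ⟨n, h1, h2, h3⟩ := (e1.and (e2.and e3)).exists
    refine hS (FF n \ E n) F (GG n) G ?_ h2 (hE3 n)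
    intro l hl
    exact Finset.mem_sdiff.2 ⟨h1 hl, h3 l hl⟩

end Vale.Agent.P016.H963
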