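import Vale.Agent.P016.R2.H963.Compact
import Mathlib.Order.Filter.AtTopBot.Finset

/-!
# One fixed exceptional set (compactness), arbitrary index types
-/

open Filter

namespace Vale.Agent.P016.H963

theorem compactGen {α β : Type*} {K : ℕ} (S : Finset α → Finset β → Prop)
    (hS : ∀ (F F' : Finset α) (G G' : Finset β), F' ⊆ F → G' ⊆ G → S F G → S F' G')
    (T : Set α) (W : Set β)
    (h : ∀ (F : Finset α) (G : Finset β), (F : Set α) ⊆ T → (G : Set β) ⊆ W →
      ∃ E : Finset α, E ⊆ F ∧ E.card ≤ K ∧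
        ∀ F' : Finset α, F' ⊆ F → Disjoint F' E → S F' G) :
    ∃ E : Finset α, (E : Set α) ⊆ T ∧ E.card ≤ K ∧
      ∀ (F : Finset α) (G : Finset β), (F : Set α) ⊆ T → Disjoint F E → (G : Set β) ⊆ W →
        S F G := by
  classical
  set FF : Finset α × Finset β → Finset α := fun n => n.1.filter (fun l => l ∈ T) with hFF
  set GG : Finset α × Finset β → Finset β := fun n => n.2.filter (fun l => l ∈ W) with hGG
  have hFT : ∀ n, ((FF n : Finset α) : Set α) ⊆ T := by
    intro n l hl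
    exact (Finset.mem_filter.1 (Finset.mem_coe.1 hl)).2
  have hGW : ∀ n, ((GG n : Finset β) : Set β) ⊆ W := by
    intro n l hl
    exact (Finset.mem_filter.1 (Finset.mem_coe.1 hl)).2
  choose E hE1 hE2 hE3 using fun n => h (FF n) (GG n) (hFT n) (hGW n)
  set U : Ultrafilter (Finset α × Finset β) := Ultrafilter.of atTop with hU
  have hUtop : (U : Filter (Finset α × Finset β)) ≤ atTop := Ultrafilter.of_le _
  obtain ⟨E₀, hc, hmem⟩ := limit_card U E K hE2
  refine ⟨E₀, ?_, hc, ?_⟩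
  · intro a ha
    obtain ⟨n, hn⟩ := ((hmem a).1 (Finset.mem_coe.1 ha)).exists
    exact hFT n (Finset.mem_coe.2 (hE1 n hn))
  · intro F G hF hdis hG
    have e1 : ∀ᶠ n in (U : Filter (Finset α × Finset β)), F ⊆ FF n ∧ G ⊆ GG n := by
      refine hUtop ?_
      filter_upwards [eventually_ge_atTop (F, G)] with n hn
      exact ⟨fun l hl => Finset.mem_filter.2 ⟨hn.1 hl, hF (Finset.mem_coe.2 hl)⟩,
        fun l hl => Finset.mem_filter.2 ⟨hn.2 hl, hG (Finset.mem_coe.2 hl)⟩⟩
    have e3 : ∀ᶠ n in (U : Filter (Finset α × Finset β)), ∀ l ∈ F, l ∉ E n := by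
      refine (Finset.eventually_all F).2 ?_
      intro l hl
      have h1 : l ∉ E₀ := Finset.disjoint_left.1 hdis hl
      rw [hmem l] at h1
      exact Ultrafilter.eventually_not.2 h1
    obtain ⟨n, h1, h3⟩ := (e1.and e3).exists
    exact hS F F (GG n) G (Finset.Subset.refl _) h1.2
      (hE3 n F h1.1 (Finset.disjoint_left.2 h3))

/-- form with one family only -/
theorem compactOne {α : Type*} {K : ℕ} (S : Finset α → Prop)
    (T : Set α)
    (h : ∀ F : Finset α, (F : Set α) ⊆ T →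
      ∃ E : Finset α, E ⊆ F ∧ E.card ≤ K ∧ ∀ F' : Finset α, F' ⊆ F → Disjoint F' E → S F') :
    ∃ E : Finset α, (E : Set α) ⊆ T ∧ E.card ≤ K ∧
      ∀ F : Finset α, (F : Set α) ⊆ T → Disjoint F E → S F := by
  obtain ⟨E, h1, h2, h3⟩ := compactGen (K := K) (α := α) (β := Unit) (fun F G => F ⊆ F ∧
    ∀ F' : Finset α, F' ⊆ F → S F')
    (fun F F' G G' hF _ hs => ⟨Finset.Subset.refl _, fun F'' hF'' => hs.2 F'' (hF''.trans hF)⟩)
    T (∅ : Set Unit) (by
      intro F G hF _
      obtain ⟨E, e1, e2, e3⟩ := h F hF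
      refine ⟨E, e1, e2, fun F' hF' hd => ⟨Finset.Subset.refl _, fun F'' hF'' => ?_⟩⟩
      exact e3 F'' (hF''.trans hF') (Disjoint.mono_left hF'' hd))
  exact ⟨E, h1, h2, fun F hF hd => (h3 F ∅ hF hd (by simp)).2 F (Finset.Subset.refl _)⟩

end Vale.Agent.P016.H963
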