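import Vale.Agent.P016.R2.H963.CompactGen
import Mathlib.Algebra.Order.Field.Basic
import Mathlib.Data.Real.Basic

/-!
# From `all but at most K` for finite sets to one fixed exceptional set
-/

open Filter Finset

namespace Vale.Agent.P016.H963

open Classical in
/-- pigeonhole over the subsets with at most `K` elements -/
theorem pigeon {α : Type*} (E : Finset α) (K : ℕ) (P : α → ℕ → Prop) (Q : ℕ → Prop) (f : ℕ → ℝ)
    (c : ℝ) (hc : 0 < c) (x₀ : ℕ)
    (h : ∀ x : ℕ, x₀ ≤ x → c * f x ≤ (((range (x + 1)).filter (fun p =>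
      Q p ∧ (E.filter (fun a => ¬ P a p)).card ≤ K)).card : ℝ)) :
    ∃ E' : Finset α, E' ⊆ E ∧ E'.card ≤ K ∧ ∃ c' : ℝ, 0 < c' ∧ ∃ᶠ x : ℕ in atTop,
      c' * f x ≤ (((range (x + 1)).filter (fun p => Q p ∧ ∀ a ∈ E \ E', P a p)).card : ℝ) := by
  set N : ℕ := 2 ^ E.card with hN
  have hNpos : (0 : ℝ) < N := by
    rw [hN]
    positivity
  have key : ∀ x : ℕ, x₀ ≤ x → ∃ E' ∈ E.powerset, E'.card ≤ K ∧ c / N * f x ≤
      (((range (x + 1)).filter (fun p => Q p ∧ ∀ a ∈ E \ E', P a p)).card : ℝ) := by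
    intro x hx
    by_contra hcon
    push Not at hcon
    have h1 := h x hx
    set A : Finset ℕ := (range (x + 1)).filter (fun p =>
      Q p ∧ (E.filter (fun a => ¬ P a p)).card ≤ K) with hA
    by_cases hAe : A.card = 0
    · rw [hAe] at h1
      have h2 := hcon ∅ (Finset.mem_powerset.2 (Finset.empty_subset _)) (by simp)
      have h3 : c / N * f x = (c * f x) / N := by ring
      have h4 : (c * f x) / N ≤ 0 := div_nonpos_of_nonpos_of_nonneg (by simpa using h1) hNpos.le
      have h5 : (0 : ℝ) ≤ (((range (x + 1)).filter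
        (fun p => Q p ∧ ∀ a ∈ E \ ∅, P a p)).card : ℝ) := Nat.cast_nonneg _
      linarith
    · set S : Finset (Finset α) := E.powerset.filter (fun E' => E'.card ≤ K) with hS
      have hcov : A ⊆ S.biUnion (fun E' => (range (x + 1)).filter
          (fun p => Q p ∧ ∀ a ∈ E \ E', P a p)) := by
        intro p hp
        rw [hA, mem_filter] at hp
        rw [mem_biUnion]
        refine ⟨E.filter (fun a => ¬ P a p), ?_, ?_⟩
        · rw [hS, mem_filter, mem_powerset]
          exact ⟨filter_subset _ _, hp.2.2⟩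
        · rw [mem_filter]
          refine ⟨hp.1, hp.2.1, fun a ha => ?_⟩
          rw [Finset.mem_sdiff, Finset.mem_filter] at ha
          by_contra hcc
          exact ha.2 ⟨ha.1, hcc⟩
      have h2 : (A.card : ℝ) ≤ ∑ E' ∈ S, (((range (x + 1)).filter
          (fun p => Q p ∧ ∀ a ∈ E \ E', P a p)).card : ℝ) := by
        exact_mod_cast (card_le_card hcov).trans card_biUnion_le
      have hSne : S.Nonempty := by
        refine ⟨∅, ?_⟩
        rw [hS, mem_filter, mem_powerset]
        exact ⟨empty_subset _, by simp⟩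
      have h3 : ∑ E' ∈ S, (((range (x + 1)).filter
          (fun p => Q p ∧ ∀ a ∈ E \ E', P a p)).card : ℝ) < ∑ _E' ∈ S, (c / N * f x) := by
        refine Finset.sum_lt_sum_of_nonempty hSne ?_
        intro E' hE'
        rw [hS, mem_filter] at hE'
        exact hcon E' hE'.1 hE'.2
      rw [sum_const, nsmul_eq_mul] at h3
      have h4 : (S.card : ℝ) ≤ N := by
        have : S.card ≤ N := by
          rw [hN, ← card_powerset]
          exact card_le_card (filter_subset _ _)
        exact_mod_cast this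
      have hfx : 0 ≤ c / N * f x := by
        by_contra hneg
        push Not at hneg
        have h5 : (0 : ℝ) < A.card := by
          have : 0 < A.card := Nat.pos_of_ne_zero hAe
          exact_mod_cast this
        have h6 : (S.card : ℝ) * (c / N * f x) ≤ 0 :=
          mul_nonpos_of_nonneg_of_nonpos (Nat.cast_nonneg _) hneg.le
        linarith
      have h5 : (S.card : ℝ) * (c / N * f x) ≤ N * (c / N * f x) :=
        mul_le_mul_of_nonneg_right h4 hfx
      have h6 : (N : ℝ) * (c / N * f x) = c * f x := by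
        field_simp
      linarith
  by_contra hcon
  push Not at hcon
  have h1 : ∀ E' ∈ E.powerset, ∀ᶠ x : ℕ in atTop, E'.card ≤ K →
      ¬ (c / N * f x ≤ (((range (x + 1)).filter
        (fun p => Q p ∧ ∀ a ∈ E \ E', P a p)).card : ℝ)) := by
    intro E' hE'
    by_cases hK : E'.card ≤ K
    · have h2 := hcon E' (mem_powerset.1 hE') hK (c / N) (by positivity)
      filter_upwards [h2] with x hx _
      exact not_le.2 hx
    · exact Eventually.of_forall (fun x hx => absurd hx hK)
  have h2 := (Finset.eventually_all E.powerset).2 h1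
  obtain ⟨x, hx1, hx2⟩ := (h2.and (eventually_ge_atTop x₀)).exists
  obtain ⟨E', e1, e2, e3⟩ := key x hx2
  exact hx1 E' e1 e2 e3

open Classical in
/-- one fixed exceptional set with at most `K` elements for all finite subsets of `T` -/
theorem fixed {α : Type*} (K : ℕ) (P : α → ℕ → Prop) (Q : ℕ → Prop) (f : ℕ → ℝ)
    (T : Set α)
    (h : ∀ E : Finset α, (E : Set α) ⊆ T → ∃ c : ℝ, 0 < c ∧ ∃ x₀ : ℕ, ∀ x : ℕ, x₀ ≤ x →
      c * f x ≤ (((range (x + 1)).filter (fun p =>
        Q p ∧ (E.filter (fun a => ¬ P a p)).card ≤ K)).card : ℝ)) :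
    ∃ E₀ : Finset α, (E₀ : Set α) ⊆ T ∧ E₀.card ≤ K ∧
      ∀ F : Finset α, (F : Set α) ⊆ T → Disjoint F E₀ →
        ∃ c : ℝ, 0 < c ∧ ∃ᶠ x : ℕ in atTop,
          c * f x ≤ (((range (x + 1)).filter (fun p => Q p ∧ ∀ a ∈ F, P a p)).card : ℝ) := by
  refine compactOne (K := K) (fun F : Finset α => ∃ c : ℝ, 0 < c ∧ ∃ᶠ x : ℕ in atTop,
          c * f x ≤ (((range (x + 1)).filter (fun p => Q p ∧ ∀ a ∈ F, P a p)).card : ℝ)) T ?_
  intro F hF
  obtain ⟨c, hc, x₀, hx⟩ := h F hF
  obtain ⟨E', e1, e2, c', hc', e3⟩ := pigeon F K P Q f c hc x₀ hx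
  refine ⟨E', e1, e2, fun F' hF' hd => ⟨c', hc', e3.mono fun x hx' => hx'.trans ?_⟩⟩
  have : ((range (x + 1)).filter (fun p => Q p ∧ ∀ a ∈ F \ E', P a p)).card ≤
      ((range (x + 1)).filter (fun p => Q p ∧ ∀ a ∈ F', P a p)).card := by
    apply card_le_card
    intro p hp
    rw [mem_filter] at hp ⊢
    exact ⟨hp.1, hp.2.1, fun a ha => hp.2.2 a (Finset.mem_sdiff.2
      ⟨hF' ha, Finset.disjoint_left.1 hd ha⟩)⟩
  exact_mod_cast this

open Classical in
/-- the set in `fixed` is infinite -/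
theorem infinite_of_frequently {Q : ℕ → Prop} {f : ℕ → ℝ} (hf : Tendsto f atTop atTop) {c : ℝ}
    (hc : 0 < c) (h : ∃ᶠ x : ℕ in atTop, c * f x ≤ (((range (x + 1)).filter Q).card : ℝ)) :
    {p : ℕ | Q p}.Infinite := by
  intro hfin
  have h1 : ∀ᶠ x : ℕ in atTop, ((hfin.toFinset.card : ℕ) : ℝ) < c * f x :=
    (hf.const_mul_atTop hc).eventually_gt_atTop _
  obtain ⟨x, h2, h3⟩ := (h.and_eventually h1).exists
  have h4 : ((range (x + 1)).filter Q).card ≤ hfin.toFinset.card := by
    apply card_le_card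
    intro p hp
    rw [mem_filter] at hp
    exact hfin.mem_toFinset.2 hp.2
  have h5 : (((range (x + 1)).filter Q).card : ℝ) ≤ (hfin.toFinset.card : ℝ) := by
    exact_mod_cast h4
  linarith

end Vale.Agent.P016.H963
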