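import Vale.Agent.P016.R2.H250.D
import Vale.Agent.P016.FE.P
import Vale.Agent.P016.R2.H963.Fixed

/-!
# One fixed exceptional set: primitive roots and squares prescribed at the same time
-/

open Filter Finset Real

namespace Vale.Agent.P016.H963

open Vale.Agent.P016.FE Vale.Agent.P016.FE.H250

open Classical in
/-- the body of `core` -/
def CoreProp (K : ℕ) (c η : ℝ) : Prop := ∀ A : ℝ, 0 < A → ∃ x₀ : ℕ, ∀ x : ℕ,
    x₀ ≤ x → ∃ G : Finset ℕ,
      (∀ p ∈ G, p ≤ x ∧ p.Prime ∧ (x : ℝ) / 10 < p ∧ PG K ((x : ℝ) ^ η) p) ∧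
      ∀ (T S : Finset ℕ) (D b : ℕ), 4 ∣ D → 1 ≤ D → AdmG D b →
        (∀ l ∈ S, l.Prime ∧ 5 ≤ l ∧ ¬ l ∣ D) → ((D * ∏ l ∈ S, l : ℕ) : ℝ) ≤ (log x) ^ A →
        c / 4 ^ S.card * (x / (Nat.totient D * (log x) ^ 2)) ≤
          ((G.filter (fun p => p % D = b ∧
            ∀ l ∈ S, (IsSquare (l : ZMod p) ↔ l ∉ T))).card : ℝ)

open Classical in
/-- all but at most `K` elements of `F` are primitive roots, all of `G` squares -/
theorem count_class {K : ℕ} {c η : ℝ} (hη : 0 < η) (hcore : CoreProp K c η)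
    (D b : ℕ) (h4 : 4 ∣ D) (hD : 1 ≤ D) (hadm : AdmG D b) (F G : Finset ℕ)
    (hF : ∀ l ∈ F, l.Prime) (hG : ∀ l ∈ G, l.Prime) (hFG : Disjoint F G)
    (hn : ∀ l ∈ F, ¬ (5 ≤ l ∧ ¬ l ∣ D) → ∀ p : ℕ, p.Prime → D < p → p % D = b →
      ¬ IsSquare (l : ZMod p))
    (hs : ∀ l ∈ G, ¬ (5 ≤ l ∧ ¬ l ∣ D) → ∀ p : ℕ, p.Prime → D < p → p % D = b →
      IsSquare (l : ZMod p)) :
    ∃ x₀ : ℕ, ∀ x : ℕ, x₀ ≤ x →
      c / (4 ^ ((F ∪ G).filter (fun l => 5 ≤ l ∧ ¬ l ∣ D)).card * Nat.totient D) *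
        (x / (log x) ^ 2) ≤
        (((range (x + 1)).filter (fun p => (p.Prime ∧ p % D = b ∧ ∀ l ∈ G, IsSquare (l : ZMod p)) ∧
          (F.filter (fun l : ℕ => ¬ orderOf (l : ZMod p) = p - 1)).card ≤ K)).card : ℝ) := by
  set S : Finset ℕ := (F ∪ G).filter (fun l => 5 ≤ l ∧ ¬ l ∣ D) with hS
  obtain ⟨x₁, h1⟩ := hcore 1 one_pos
  have hcast : Tendsto (fun x : ℕ => (x : ℝ)) atTop atTop := tendsto_natCast_atTop_atTop
  have e1 : ∀ᶠ x : ℕ in atTop, ((D * ∏ l ∈ S, l : ℕ) : ℝ) ≤ log x :=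
    (tendsto_log_atTop.comp hcast).eventually_ge_atTop _
  have e2 : ∀ᶠ x : ℕ in atTop, ((F.sup id : ℕ) : ℝ) ≤ (x : ℝ) ^ η :=
    ((tendsto_rpow_atTop hη).comp hcast).eventually_ge_atTop _
  have e3 : ∀ᶠ x : ℕ in atTop, 10 * (D : ℝ) ≤ x := hcast.eventually_ge_atTop _
  obtain ⟨x₂, h2⟩ := eventually_atTop.1 (e1.and (e2.and e3))
  refine ⟨max x₁ x₂, fun x hx => ?_⟩
  obtain ⟨f1, f2, f3⟩ := h2 x ((le_max_right _ _).trans hx)
  obtain ⟨Gx, hGx, hcount⟩ := h1 x ((le_max_left _ _).trans hx)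
  have hSp : ∀ l ∈ S, l.Prime ∧ 5 ≤ l ∧ ¬ l ∣ D := by
    intro l hl
    rw [hS, Finset.mem_filter, Finset.mem_union] at hl
    refine ⟨?_, hl.2⟩
    rcases hl.1 with h | h
    · exact hF l h
    · exact hG l h
  have h3 := hcount F S D b h4 hD hadm hSp (by rw [Real.rpow_one]; exact f1)
  have h4' : c / (4 ^ S.card * Nat.totient D) * (x / (log x) ^ 2) =
      c / 4 ^ S.card * (x / (Nat.totient D * (log x) ^ 2)) := by
    rw [div_mul_div_comm, div_mul_div_comm]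
    ring_nf
  rw [h4']
  refine h3.trans ?_
  have hsub : Gx.filter (fun p => p % D = b ∧ ∀ l ∈ S, (IsSquare (l : ZMod p) ↔ l ∉ F)) ⊆
      (range (x + 1)).filter (fun p => (p.Prime ∧ p % D = b ∧ ∀ l ∈ G, IsSquare (l : ZMod p)) ∧
          (F.filter (fun l : ℕ => ¬ orderOf (l : ZMod p) = p - 1)).card ≤ K) := by
    intro p hp
    rw [Finset.mem_filter] at hp
    obtain ⟨hpG, hpb, hpS⟩ := hp
    obtain ⟨g1, g2, g3, g4⟩ := hGx p hpG
    have hDp : D < p := by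
      have : (D : ℝ) < p := by linarith
      exact_mod_cast this
    have hns : ∀ l ∈ F, ¬ IsSquare (l : ZMod p) := by
      intro l hl
      by_cases hl5 : 5 ≤ l ∧ ¬ l ∣ D
      · have hlS : l ∈ S := by
          rw [hS, Finset.mem_filter, Finset.mem_union]
          exact ⟨Or.inl hl, hl5⟩
        intro hsq
        exact (hpS l hlS).1 hsq hl
      · exact hn l hl hl5 p g2 hDp hpb
    rw [Finset.mem_filter, Finset.mem_range]
    refine ⟨by omega, ⟨g2, hpb, fun l hl => ?_⟩, ?_⟩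
    · by_cases hl5 : 5 ≤ l ∧ ¬ l ∣ D
      · have hlS : l ∈ S := by
          rw [hS, Finset.mem_filter, Finset.mem_union]
          exact ⟨Or.inr hl, hl5⟩
        exact (hpS l hlS).2 (fun hlF => Finset.disjoint_left.1 hFG hlF hl)
      · exact hs l hl hl5 p g2 hDp hpb
    · have h5 := g4 (F.map ⟨fun l : ℕ => (l : ℤ), Nat.cast_injective⟩) (indep_primes F hF) (by
        intro a ha
        rw [Finset.mem_map] at ha
        obtain ⟨l, hl, rfl⟩ := ha
        simp only [Function.Embedding.coeFn_mk, Int.cast_natCast]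
        rw [abs_of_nonneg (Nat.cast_nonneg _)]
        have h6 : l ≤ F.sup id := Finset.le_sup (f := id) hl
        have h7 : (l : ℝ) ≤ ((F.sup id : ℕ) : ℝ) := by exact_mod_cast h6
        linarith)
      refine le_trans ?_ h5
      rw [← Finset.card_map ⟨fun l : ℕ => (l : ℤ), Nat.cast_injective⟩]
      apply Finset.card_le_card
      intro a ha
      rw [Finset.mem_map] at ha
      obtain ⟨l, hl, rfl⟩ := ha
      rw [Finset.mem_filter] at hl
      rw [Finset.mem_filter, Finset.mem_map]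
      refine ⟨⟨l, hl.1, rfl⟩, ?_⟩
      intro hind
      apply hl.2
      simp only [Function.Embedding.coeFn_mk] at hind
      have h8 := primroot_of p g2 (l : ℤ) hind (by
        rw [Int.cast_natCast]
        exact hns l hl.1)
      rw [Int.cast_natCast] at h8
      exact h8
  exact_mod_cast Finset.card_le_card hsub

open Classical in
/-- fixed exceptional set, in a class -/
theorem fixed_class {K : ℕ} {c η : ℝ} (hc : 0 < c) (hη : 0 < η) (hcore : CoreProp K c η)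
    (D b : ℕ) (h4 : 4 ∣ D) (hD : 1 ≤ D) (hadm : AdmG D b) (T W : Set ℕ)
    (hT : ∀ l ∈ T, l.Prime) (hW : ∀ l ∈ W, l.Prime) (hTW : Disjoint T W)
    (hn : ∀ l ∈ T, ¬ (5 ≤ l ∧ ¬ l ∣ D) → ∀ p : ℕ, p.Prime → D < p → p % D = b →
      ¬ IsSquare (l : ZMod p))
    (hs : ∀ l ∈ W, ¬ (5 ≤ l ∧ ¬ l ∣ D) → ∀ p : ℕ, p.Prime → D < p → p % D = b →
      IsSquare (l : ZMod p)) :
    ∃ E : Finset ℕ, (E : Set ℕ) ⊆ T ∧ E.card ≤ K ∧
      ∀ F G : Finset ℕ, (F : Set ℕ) ⊆ T → Disjoint F E → (G : Set ℕ) ⊆ W →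
        ∃ c₁ : ℝ, 0 < c₁ ∧ ∃ᶠ x : ℕ in atTop, c₁ * (x / (log x) ^ 2) ≤
          (((range (x + 1)).filter (fun p => p.Prime ∧ p % D = b ∧
            (∀ l ∈ F, orderOf (l : ZMod p) = p - 1) ∧ ∀ l ∈ G, IsSquare (l : ZMod p))).card : ℝ) := by
  refine compactGen (K := K) (fun F G : Finset ℕ => ∃ c₁ : ℝ, 0 < c₁ ∧ ∃ᶠ x : ℕ in atTop,
      c₁ * (x / (log x) ^ 2) ≤ (((range (x + 1)).filter (fun p => p.Prime ∧ p % D = b ∧
            (∀ l ∈ F, orderOf (l : ZMod p) = p - 1) ∧ ∀ l ∈ G, IsSquare (l : ZMod p))).card : ℝ))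
    ?_ T W ?_
  · rintro F F' G G' hF hG ⟨c₁, hc₁, h⟩
    refine ⟨c₁, hc₁, h.mono fun x hx => hx.trans ?_⟩
    have : ((range (x + 1)).filter (fun p => p.Prime ∧ p % D = b ∧
            (∀ l ∈ F, orderOf (l : ZMod p) = p - 1) ∧ ∀ l ∈ G, IsSquare (l : ZMod p))).card ≤
        ((range (x + 1)).filter (fun p => p.Prime ∧ p % D = b ∧
            (∀ l ∈ F', orderOf (l : ZMod p) = p - 1) ∧
              ∀ l ∈ G', IsSquare (l : ZMod p))).card := by
      apply Finset.card_le_card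
      intro p hp
      rw [Finset.mem_filter] at hp ⊢
      exact ⟨hp.1, hp.2.1, hp.2.2.1, fun l hl => hp.2.2.2.1 l (hF hl),
        fun l hl => hp.2.2.2.2 l (hG hl)⟩
    exact_mod_cast this
  · intro F G hF hG
    have hφ : (0 : ℝ) < Nat.totient D := by exact_mod_cast Nat.totient_pos.2 hD
    obtain ⟨x₀, hx₀⟩ := count_class hη hcore D b h4 hD hadm F G (fun l hl => hT l (hF hl))
      (fun l hl => hW l (hG hl)) (Finset.disjoint_left.2 fun l hl hl' =>
        Set.disjoint_left.1 hTW (hF hl) (hG hl'))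
      (fun l hl => hn l (hF hl)) (fun l hl => hs l (hG hl))
    have hpos : 0 < c / (4 ^ ((F ∪ G).filter (fun l => 5 ≤ l ∧ ¬ l ∣ D)).card *
        (Nat.totient D : ℝ)) := by positivity
    obtain ⟨E, e1, e2, c', hc', e3⟩ := pigeon F K (fun (l p : ℕ) => orderOf (l : ZMod p) = p - 1)
      (fun p => p.Prime ∧ p % D = b ∧ ∀ l ∈ G, IsSquare (l : ZMod p))
      (fun x : ℕ => (x : ℝ) / (log x) ^ 2) _ hpos x₀ (fun x hx => (hx₀ x hx).trans (by
        refine Nat.cast_le.2 (Finset.card_le_card fun p hp => ?_)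
        simp only [Finset.mem_filter] at hp ⊢
        refine ⟨hp.1, hp.2.1, le_trans (Finset.card_le_card fun l hl => ?_) hp.2.2⟩
        simp only [Finset.mem_filter] at hl ⊢
        exact hl))
    refine ⟨E, e1, e2, fun F' hF' hd => ⟨c', hc', e3.mono fun x hx => hx.trans ?_⟩⟩
    refine Nat.cast_le.2 (Finset.card_le_card fun p hp => ?_)
    simp only [Finset.mem_filter, Finset.mem_sdiff] at hp ⊢
    exact ⟨hp.1, hp.2.1.1, hp.2.1.2.1, fun l hl => hp.2.2 l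
        ⟨hF' hl, Finset.disjoint_left.1 hd hl⟩, hp.2.1.2.2⟩

/-- (2a): primes at least `5` not dividing `D`, in an admissible class modulo `D` -/
theorem fixed_progression {K : ℕ} {c η : ℝ} (hc : 0 < c) (hη : 0 < η) (hcore : CoreProp K c η)
    (D b : ℕ) (h4 : 4 ∣ D) (hD : 1 ≤ D) (hadm : AdmG D b) (T : Set ℕ)
    (hT : ∀ l ∈ T, l.Prime ∧ 5 ≤ l ∧ ¬ l ∣ D) :
    ∃ E : Finset ℕ, (E : Set ℕ) ⊆ T ∧ E.card ≤ K ∧
      ∀ F G : Finset ℕ, (F : Set ℕ) ⊆ T → Disjoint F E →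
        (∀ l ∈ G, l.Prime ∧ 5 ≤ l ∧ ¬ l ∣ D ∧ l ∉ T) →
        ∃ c₁ : ℝ, 0 < c₁ ∧ ∃ᶠ x : ℕ in atTop, c₁ * (x / (log x) ^ 2) ≤
          ((by classical exact ((range (x + 1)).filter (fun p => p.Prime ∧ p % D = b ∧
            (∀ l ∈ F, orderOf (l : ZMod p) = p - 1) ∧
              ∀ l ∈ G, IsSquare (l : ZMod p))).card : ℕ) : ℝ) := by
  classical
  obtain ⟨E, e1, e2, e3⟩ := fixed_class hc hη hcore D b h4 hD hadm T
    {l | l.Prime ∧ 5 ≤ l ∧ ¬ l ∣ D ∧ l ∉ T} (fun l hl => (hT l hl).1) (fun l hl => hl.1)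
    (Set.disjoint_left.2 fun l hl hl' => hl'.2.2.2 hl)
    (fun l hl h => absurd (hT l hl).2 h) (fun l hl h => absurd ⟨hl.2.1, hl.2.2.1⟩ h)
  refine ⟨E, e1, e2, fun F G hF hFE hG => ?_⟩
  obtain ⟨c₁, hc₁, h⟩ := e3 F G hF hFE (fun l hl => hG l (Finset.mem_coe.1 hl))
  refine ⟨c₁, hc₁, h.mono fun x hx => hx.trans ?_⟩
  refine Nat.cast_le.2 (Finset.card_le_card fun p hp => ?_)
  simp only [Finset.mem_filter] at hp ⊢
  exact hp

/-! ### the primes `2` and `3` -/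

lemma two_iff {p : ℕ} (hp : p.Prime) (h : 24 < p) {b : ℕ} (hb : p % 24 = b) :
    IsSquare (2 : ZMod p) ↔ b % 8 = 1 ∨ b % 8 = 7 := by
  have : Fact p.Prime := ⟨hp⟩
  rw [ZMod.exists_sq_eq_two_iff (by omega)]
  omega

lemma two_nonsq_three : ¬ IsSquare (2 : ZMod 3) := by decide

lemma three_iff {p : ℕ} (hp : p.Prime) (h : 24 < p) {b : ℕ} (hb : p % 24 = b) (hb3 : b % 3 = 2) :
    IsSquare (3 : ZMod p) ↔ b % 4 = 3 := by
  have : Fact p.Prime := ⟨hp⟩
  have : Fact (Nat.Prime 3) := ⟨Nat.prime_three⟩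
  have hp3 : ((p : ℕ) : ZMod 3) = 2 := by
    have h1 : ((p : ℕ) : ZMod 3) = ((2 : ℕ) : ZMod 3) := by
      rw [ZMod.natCast_eq_natCast_iff]
      unfold Nat.ModEq
      omega
    rw [h1]
    rfl
  have hns : ¬ IsSquare (2 : ZMod 3) := two_nonsq_three
  have hodd : p % 2 = 1 := by
    rcases hp.eq_two_or_odd with h2 | h2
    · omega
    · exact h2
  have hp4 : p % 4 = 1 ∨ p % 4 = 3 := by omega
  rcases hp4 with h4 | h4
  · have h5 := ZMod.exists_sq_eq_prime_iff_of_mod_four_eq_one (p := p) (q := 3) h4 (by norm_num)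
    rw [hp3] at h5
    have h6 : ¬ IsSquare ((3 : ℕ) : ZMod p) := fun h => hns (h5.1 h)
    have h7 : ¬ IsSquare (3 : ZMod p) := by exact_mod_cast h6
    constructor
    · intro h
      exact absurd h h7
    · intro h
      omega
  · have h5 := ZMod.exists_sq_eq_prime_iff_of_mod_four_eq_three (p := p) (q := 3) h4 (by norm_num)
      (by omega)
    rw [hp3] at h5
    have h6 : IsSquare ((3 : ℕ) : ZMod p) := h5.2 hns
    have h7 : IsSquare (3 : ZMod p) := by exact_mod_cast h6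
    constructor
    · intro _
      omega
    · intro _
      exact h7

/-- (2b): any set of primes -/
theorem fixed_all {K : ℕ} {c η : ℝ} (hc : 0 < c) (hη : 0 < η) (hcore : CoreProp K c η)
    (T : Set ℕ) (hT : ∀ l ∈ T, l.Prime) :
    ∃ E : Finset ℕ, (E : Set ℕ) ⊆ T ∧ E.card ≤ K ∧
      ∀ F G : Finset ℕ, (F : Set ℕ) ⊆ T → Disjoint F E → (∀ l ∈ G, l.Prime ∧ l ∉ T) →
        ∃ c₁ : ℝ, 0 < c₁ ∧ ∃ᶠ x : ℕ in atTop, c₁ * (x / (log x) ^ 2) ≤
          ((by classical exact ((range (x + 1)).filter (fun p => p.Prime ∧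
            (∀ l ∈ F, orderOf (l : ZMod p) = p - 1) ∧
              ∀ l ∈ G, IsSquare (l : ZMod p))).card : ℕ) : ℝ) := by
  classical
  set b : ℕ := if 2 ∈ T then (if 3 ∈ T then 5 else 11) else (if 3 ∈ T then 17 else 23) with hb
  have hb0 : b = 5 ∨ b = 11 ∨ b = 17 ∨ b = 23 := by
    rw [hb]
    split_ifs <;> simp
  have hb3 : b % 3 = 2 := by
    rcases hb0 with h | h | h | h <;> rw [h]
  have hadm : AdmG 24 b := by
    refine ⟨by omega, ?_, ?_⟩
    · rcases hb0 with h | h | h | h <;> rw [h] <;> decide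
    · intro q hq hq3 hqd h
      have hq' : q = 3 := by
        have h1 : q ∣ 2 ^ 3 * 3 := by simpa using hqd
        rcases (Nat.Prime.dvd_mul hq).1 h1 with h2 | h2
        · have := Nat.le_of_dvd (by norm_num) (hq.dvd_of_dvd_pow h2)
          omega
        · exact (Nat.prime_dvd_prime_iff_eq hq Nat.prime_three).1 h2
      subst hq'
      omega
  have h2T : 2 ∈ T → ¬ (b % 8 = 1 ∨ b % 8 = 7) := by
    intro h
    rw [hb, if_pos h]
    split_ifs <;> norm_num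
  have h2W : 2 ∉ T → (b % 8 = 1 ∨ b % 8 = 7) := by
    intro h
    rw [hb, if_neg h]
    split_ifs <;> norm_num
  have h3T : 3 ∈ T → ¬ b % 4 = 3 := by
    intro h
    rw [hb, if_pos h, if_pos h]
    split_ifs <;> norm_num
  have h3W : 3 ∉ T → b % 4 = 3 := by
    intro h
    rw [hb, if_neg h, if_neg h]
    split_ifs <;> norm_num
  have hsmall : ∀ l : ℕ, l.Prime → ¬ (5 ≤ l ∧ ¬ l ∣ 24) → l = 2 ∨ l = 3 := by
    intro l hl h
    by_cases h5 : 5 ≤ l
    · exfalso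
      apply h
      refine ⟨h5, fun hd => ?_⟩
      have h1 : l ∣ 2 ^ 3 * 3 := by simpa using hd
      rcases (Nat.Prime.dvd_mul hl).1 h1 with h2 | h2
      · have := Nat.le_of_dvd (by norm_num) (hl.dvd_of_dvd_pow h2)
        omega
      · have := Nat.le_of_dvd (by norm_num) h2
        omega
    · have := hl.two_le
      have h4 : l ≠ 4 := by
        rintro rfl
        exact absurd hl (by norm_num)
      omega
  obtain ⟨E, e1, e2, e3⟩ := fixed_class hc hη hcore 24 b (by norm_num) (by norm_num) hadm T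
    {l | l.Prime ∧ l ∉ T} hT (fun l hl => hl.1) (Set.disjoint_left.2 fun l hl hl' => hl'.2 hl)
    (by
      intro l hl h p hp hDp hpb
      rcases hsmall l (hT l hl) h with rfl | rfl
      · have h1 := two_iff hp hDp hpb
        have h2 : ¬ IsSquare (2 : ZMod p) := fun h => h2T hl (h1.1 h)
        exact_mod_cast h2
      · have h1 := three_iff hp hDp hpb hb3
        have h2 : ¬ IsSquare (3 : ZMod p) := fun h => h3T hl (h1.1 h)
        exact_mod_cast h2)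
    (by
      intro l hl h p hp hDp hpb
      rcases hsmall l hl.1 h with rfl | rfl
      · have h1 := two_iff hp hDp hpb
        have h2 : IsSquare (2 : ZMod p) := h1.2 (h2W hl.2)
        exact_mod_cast h2
      · have h1 := three_iff hp hDp hpb hb3
        have h2 : IsSquare (3 : ZMod p) := h1.2 (h3W hl.2)
        exact_mod_cast h2)
  refine ⟨E, e1, e2, fun F G hF hFE hG => ?_⟩
  obtain ⟨c₁, hc₁, h⟩ := e3 F G hF hFE (fun l hl => hG l (Finset.mem_coe.1 hl))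
  refine ⟨c₁, hc₁, h.mono fun x hx => hx.trans ?_⟩
  refine Nat.cast_le.2 (Finset.card_le_card fun p hp => ?_)
  simp only [Finset.mem_filter] at hp ⊢
  exact ⟨hp.1, hp.2.1, hp.2.2.2⟩

end Vale.Agent.P016.H963
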