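import Mathlib

/-! # P016: from one base to tuples of bases (telescoping) -/

namespace Vale.Agent.P016.FE.H250

open Finset

/-- If for every weight `u` with values in `[0,1]` all but `B` elements `q` of `A` have
`|∑ u (f q - w)| ≤ Delta`, then for every such weight all but `r * #A ^ (r-1) * B` tuples
`q : Fin r → A` have `|∑ u (∏ f (q i) - w ^ r)| ≤ r Delta`. -/
theorem tuples {A : Finset ℕ} (P : Finset ℕ) (f : ℕ → ℕ → ℝ)
    (hf : ∀ p q, 0 ≤ f p q ∧ f p q ≤ 1) (wt : ℕ → ℝ) (hw : ∀ p, 0 ≤ wt p ∧ wt p ≤ 1)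
    (B Delta : ℝ) (hB : 0 ≤ B)
    (h : ∀ u : ℕ → ℝ, (∀ p, 0 ≤ u p ∧ u p ≤ 1) →
      ((A.filter (fun q => Delta < |∑ p ∈ P, u p * (f p q - wt p)|)).card : ℝ) ≤ B) (r : ℕ) :
    ∀ u : ℕ → ℝ, (∀ p, 0 ≤ u p ∧ u p ≤ 1) →
      (((Fintype.piFinset (fun _ : Fin r => A)).filter (fun q =>
        (r : ℝ) * Delta < |∑ p ∈ P, u p * (∏ i, f p (q i) - wt p ^ r)|)).card : ℝ) ≤
        (r : ℝ) * (A.card : ℝ) ^ (r - 1) * B := by
  classical
  induction r with
  | zero =>
    intro u hu
    have : ((Fintype.piFinset (fun _ : Fin 0 => A)).filter (fun q =>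
        ((0 : ℕ) : ℝ) * Delta < |∑ p ∈ P, u p * (∏ i, f p (q i) - wt p ^ 0)|)) = ∅ := by
      apply Finset.filter_false_of_mem
      intro q _
      simp
    rw [this]
    simp
  | succ r ih =>
    intro u hu
    -- bad first coordinate: `∑ u wt^r (f q₀ - wt)`
    have hu1 : ∀ p, 0 ≤ u p * wt p ^ r ∧ u p * wt p ^ r ≤ 1 := by
      intro p
      refine ⟨mul_nonneg (hu p).1 (pow_nonneg (hw p).1 _), ?_⟩
      exact mul_le_one₀ (hu p).2 (pow_nonneg (hw p).1 _) (pow_le_one₀ (hw p).1 (hw p).2)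
    have hu2 : ∀ q0 p, 0 ≤ u p * f p q0 ∧ u p * f p q0 ≤ 1 := by
      intro q0 p
      exact ⟨mul_nonneg (hu p).1 (hf p q0).1, mul_le_one₀ (hu p).2 (hf p q0).1 (hf p q0).2⟩
    have key : ((Fintype.piFinset (fun _ : Fin (r + 1) => A)).filter (fun q =>
        ((r + 1 : ℕ) : ℝ) * Delta < |∑ p ∈ P, u p * (∏ i, f p (q i) - wt p ^ (r + 1))|)) ⊆
        (((A.filter (fun q0 => Delta < |∑ p ∈ P, (u p * wt p ^ r) * (f p q0 - wt p)|)) ×ˢ
          (Fintype.piFinset (fun _ : Fin r => A))).image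
          (fun x => (Fin.cons x.1 x.2 : Fin (r + 1) → ℕ))) ∪
        A.biUnion (fun q0 => ((Fintype.piFinset (fun _ : Fin r => A)).filter (fun q =>
          (r : ℝ) * Delta < |∑ p ∈ P, (u p * f p q0) * (∏ i, f p (q i) - wt p ^ r)|)).image
          (fun t => (Fin.cons q0 t : Fin (r + 1) → ℕ))) := by
      intro q hq
      rw [Finset.mem_filter, Fintype.mem_piFinset] at hq
      obtain ⟨hqA, hq⟩ := hq
      have hcons : (Fin.cons (q 0) (Fin.tail q) : Fin (r + 1) → ℕ) = q := Fin.cons_self_tail q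
      have htail : Fin.tail q ∈ Fintype.piFinset (fun _ : Fin r => A) := by
        rw [Fintype.mem_piFinset]
        intro i
        exact hqA i.succ
      have hsplit : ∑ p ∈ P, u p * (∏ i, f p (q i) - wt p ^ (r + 1)) =
          (∑ p ∈ P, (u p * f p (q 0)) * (∏ i, f p (Fin.tail q i) - wt p ^ r)) +
          ∑ p ∈ P, (u p * wt p ^ r) * (f p (q 0) - wt p) := by
        rw [← Finset.sum_add_distrib]
        refine Finset.sum_congr rfl fun p _ => ?_
        rw [Fin.prod_univ_succ, pow_succ]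
        simp only [Fin.tail]
        ring
      rw [Finset.mem_union]
      by_cases h1 : Delta < |∑ p ∈ P, (u p * wt p ^ r) * (f p (q 0) - wt p)|
      · left
        rw [Finset.mem_image]
        refine ⟨(q 0, Fin.tail q), ?_, hcons⟩
        rw [Finset.mem_product]
        exact ⟨Finset.mem_filter.mpr ⟨hqA 0, h1⟩, htail⟩
      · right
        rw [Finset.mem_biUnion]
        refine ⟨q 0, hqA 0, ?_⟩
        rw [Finset.mem_image]
        refine ⟨Fin.tail q, ?_, hcons⟩
        rw [Finset.mem_filter]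
        refine ⟨htail, ?_⟩
        rw [not_lt] at h1
        rw [hsplit] at hq
        have h2 := abs_add_le
          (∑ p ∈ P, (u p * f p (q 0)) * (∏ i, f p (Fin.tail q i) - wt p ^ r))
          (∑ p ∈ P, (u p * wt p ^ r) * (f p (q 0) - wt p))
        push_cast at hq
        linarith
    have hcard := Finset.card_le_card key
    have hc1 := (Finset.card_union_le
      (((A.filter (fun q0 => Delta < |∑ p ∈ P, (u p * wt p ^ r) * (f p q0 - wt p)|)) ×ˢ
          (Fintype.piFinset (fun _ : Fin r => A))).image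
          (fun x => (Fin.cons x.1 x.2 : Fin (r + 1) → ℕ)))
      (A.biUnion (fun q0 => ((Fintype.piFinset (fun _ : Fin r => A)).filter (fun q =>
          (r : ℝ) * Delta < |∑ p ∈ P, (u p * f p q0) * (∏ i, f p (q i) - wt p ^ r)|)).image
          (fun t => (Fin.cons q0 t : Fin (r + 1) → ℕ)))))
    have hpi : (Fintype.piFinset (fun _ : Fin r => A)).card = A.card ^ r := by
      rw [Fintype.card_piFinset]
      simp
    have hA1 : ((((A.filter (fun q0 => Delta < |∑ p ∈ P, (u p * wt p ^ r) * (f p q0 - wt p)|)) ×ˢ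
          (Fintype.piFinset (fun _ : Fin r => A))).image
          (fun x => (Fin.cons x.1 x.2 : Fin (r + 1) → ℕ))).card : ℝ) ≤
        B * (A.card : ℝ) ^ r := by
      have h3 := (Finset.card_image_le (s := ((A.filter (fun q0 => Delta < |∑ p ∈ P, (u p * wt p ^ r) * (f p q0 - wt p)|)) ×ˢ
          (Fintype.piFinset (fun _ : Fin r => A))))
          (f := fun x => (Fin.cons x.1 x.2 : Fin (r + 1) → ℕ)))
      rw [Finset.card_product, hpi] at h3
      have h4 : ((((A.filter (fun q0 => Delta < |∑ p ∈ P, (u p * wt p ^ r) * (f p q0 - wt p)|)) ×ˢ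
          (Fintype.piFinset (fun _ : Fin r => A))).image
          (fun x => (Fin.cons x.1 x.2 : Fin (r + 1) → ℕ))).card : ℝ) ≤
          ((A.filter (fun q0 => Delta < |∑ p ∈ P, (u p * wt p ^ r) * (f p q0 - wt p)|)).card : ℝ) *
            (A.card : ℝ) ^ r := by exact_mod_cast h3
      refine h4.trans ?_
      exact mul_le_mul_of_nonneg_right (h _ hu1) (by positivity)
    have hA2 : ((A.biUnion (fun q0 => ((Fintype.piFinset (fun _ : Fin r => A)).filter (fun q =>
          (r : ℝ) * Delta < |∑ p ∈ P, (u p * f p q0) * (∏ i, f p (q i) - wt p ^ r)|)).image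
          (fun t => (Fin.cons q0 t : Fin (r + 1) → ℕ)))).card : ℝ) ≤
        (A.card : ℝ) * ((r : ℝ) * (A.card : ℝ) ^ (r - 1) * B) := by
      have h5 : ((A.biUnion (fun q0 => ((Fintype.piFinset (fun _ : Fin r => A)).filter (fun q =>
          (r : ℝ) * Delta < |∑ p ∈ P, (u p * f p q0) * (∏ i, f p (q i) - wt p ^ r)|)).image
          (fun t => (Fin.cons q0 t : Fin (r + 1) → ℕ)))).card : ℝ) ≤
          ∑ q0 ∈ A, (((Fintype.piFinset (fun _ : Fin r => A)).filter (fun q =>
          (r : ℝ) * Delta < |∑ p ∈ P, (u p * f p q0) * (∏ i, f p (q i) - wt p ^ r)|)).card : ℝ) := by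
        have h6 := (Finset.card_biUnion_le (s := A) (t := fun q0 => ((Fintype.piFinset (fun _ : Fin r => A)).filter (fun q =>
          (r : ℝ) * Delta < |∑ p ∈ P, (u p * f p q0) * (∏ i, f p (q i) - wt p ^ r)|)).image
          (fun t => (Fin.cons q0 t : Fin (r + 1) → ℕ))))
        have h7 : ∑ q0 ∈ A, (((Fintype.piFinset (fun _ : Fin r => A)).filter (fun q =>
          (r : ℝ) * Delta < |∑ p ∈ P, (u p * f p q0) * (∏ i, f p (q i) - wt p ^ r)|)).image
          (fun t => (Fin.cons q0 t : Fin (r + 1) → ℕ))).card ≤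
          ∑ q0 ∈ A, ((Fintype.piFinset (fun _ : Fin r => A)).filter (fun q =>
          (r : ℝ) * Delta < |∑ p ∈ P, (u p * f p q0) * (∏ i, f p (q i) - wt p ^ r)|)).card :=
          Finset.sum_le_sum fun q0 _ => Finset.card_image_le
        exact_mod_cast h6.trans h7
      refine h5.trans ?_
      calc ∑ q0 ∈ A, (((Fintype.piFinset (fun _ : Fin r => A)).filter (fun q =>
          (r : ℝ) * Delta < |∑ p ∈ P, (u p * f p q0) * (∏ i, f p (q i) - wt p ^ r)|)).card : ℝ)
          ≤ ∑ _q0 ∈ A, ((r : ℝ) * (A.card : ℝ) ^ (r - 1) * B) :=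
            Finset.sum_le_sum fun q0 _ => ih _ (hu2 q0)
        _ = (A.card : ℝ) * ((r : ℝ) * (A.card : ℝ) ^ (r - 1) * B) := by
            rw [Finset.sum_const, nsmul_eq_mul]
    have hpow : (A.card : ℝ) * ((r : ℝ) * (A.card : ℝ) ^ (r - 1) * B) =
        (r : ℝ) * (A.card : ℝ) ^ r * B := by
      rcases Nat.eq_zero_or_pos r with hr | hr
      · subst hr; simp
      · obtain ⟨s, rfl⟩ : ∃ s, r = s + 1 := ⟨r - 1, by omega⟩
        rw [Nat.add_sub_cancel, pow_succ]
        ring
    have hcardR : (((Fintype.piFinset (fun _ : Fin (r + 1) => A)).filter (fun q =>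
        ((r + 1 : ℕ) : ℝ) * Delta < |∑ p ∈ P, u p * (∏ i, f p (q i) - wt p ^ (r + 1))|)).card : ℝ) ≤
        ((((A.filter (fun q0 => Delta < |∑ p ∈ P, (u p * wt p ^ r) * (f p q0 - wt p)|)) ×ˢ
          (Fintype.piFinset (fun _ : Fin r => A))).image
          (fun x => (Fin.cons x.1 x.2 : Fin (r + 1) → ℕ))).card : ℝ) +
        ((A.biUnion (fun q0 => ((Fintype.piFinset (fun _ : Fin r => A)).filter (fun q =>
          (r : ℝ) * Delta < |∑ p ∈ P, (u p * f p q0) * (∏ i, f p (q i) - wt p ^ r)|)).image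
          (fun t => (Fin.cons q0 t : Fin (r + 1) → ℕ)))).card : ℝ) := by
      exact_mod_cast hcard.trans hc1
    rw [Nat.add_sub_cancel]
    push_cast
    push_cast at hcardR
    calc _ ≤ _ := hcardR
      _ ≤ B * (A.card : ℝ) ^ r + (r : ℝ) * (A.card : ℝ) ^ r * B := by
          rw [← hpow]
          exact add_le_add hA1 hA2
      _ = ((r : ℝ) + 1) * (A.card : ℝ) ^ r * B := by ring

end Vale.Agent.P016.FE.H250
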