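import Vale.Agent.P016.R2.H963.Pattern
import Mathlib.NumberTheory.Primorial

/-!
# Prescribed squares and primitive roots in a growing window
-/

open Filter Finset Real

namespace Vale.Agent.P016.H963

open Vale.Agent.P016.FE Vale.Agent.P016.FE.H250

/-- a class modulo `24` with prescribed characters of `2` and `3` -/
lemma cls24 (T : Set ℕ) : ∃ b : ℕ, AdmG 24 b ∧ ∀ p : ℕ, p.Prime → 24 < p → p % 24 = b →
    (IsSquare (2 : ZMod p) ↔ 2 ∉ T) ∧ (IsSquare (3 : ZMod p) ↔ 3 ∉ T) := by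
  classical
  set b : ℕ := if 2 ∈ T then (if 3 ∈ T then 5 else 11) else (if 3 ∈ T then 17 else 23) with hb
  have hb0 : b = 5 ∨ b = 11 ∨ b = 17 ∨ b = 23 := by
    rw [hb]
    split_ifs <;> simp
  have hb3 : b % 3 = 2 := by
    rcases hb0 with h | h | h | h <;> rw [h]
  have hadm : AdmG 24 b := by
    refine ⟨by omega, ?_, ?_⟩
    · rcases hb0 with h | h | h | h <;> rw [h] <;> decide
    · intro q hq hq3 hqd h
      have hq' : q = 3 := by
        have h1 : q ∣ 2 ^ 3 * 3 := by simpa using hqd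
        rcases (Nat.Prime.dvd_mul hq).1 h1 with h2 | h2
        · have := Nat.le_of_dvd (by norm_num) (hq.dvd_of_dvd_pow h2)
          omega
        · exact (Nat.prime_dvd_prime_iff_eq hq Nat.prime_three).1 h2
      subst hq'
      omega
  refine ⟨b, hadm, fun p hp hp24 hpb => ⟨?_, ?_⟩⟩
  · rw [two_iff hp hp24 hpb, hb]
    split_ifs with h1 h2 h2 <;> simp [h1]
  · rw [three_iff hp hp24 hpb hb3, hb]
    split_ifs with h1 h2 h2 <;> simp [h2]

/-- the product of the primes in `[5, y]` -/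
lemma prod_le_four_pow (y : ℕ) :
    ∏ l ∈ (range (y + 1)).filter (fun l => l.Prime ∧ 5 ≤ l), l ≤ 4 ^ y := by
  refine le_trans ?_ (primorial_le_four_pow y)
  unfold primorial
  refine Finset.prod_le_prod_of_subset_of_one_le' ?_ ?_
  · intro l hl
    rw [Finset.mem_filter] at hl ⊢
    exact ⟨hl.1, hl.2.1⟩
  · intro l hl _
    rw [Finset.mem_filter] at hl
    exact hl.2.one_lt.le

/-- `4 ^ y` for `y ≤ A log log x` -/
lemma four_pow_le {A L : ℝ} (hA : 0 < A) (hL : 1 ≤ L) :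
    (4 : ℝ) ^ (⌊A * log L⌋₊) ≤ L ^ (A * log 4) := by
  have h4 : (0 : ℝ) < log 4 := Real.log_pos (by norm_num)
  have hl : 0 ≤ A * log L := mul_nonneg hA.le (Real.log_nonneg hL)
  have h1 : ((⌊A * log L⌋₊ : ℕ) : ℝ) ≤ A * log L := Nat.floor_le hl
  rw [← Real.rpow_natCast]
  calc (4 : ℝ) ^ ((⌊A * log L⌋₊ : ℕ) : ℝ) ≤ 4 ^ (A * log L) :=
        Real.rpow_le_rpow_of_exponent_le (by norm_num) h1
    _ = L ^ (A * log 4) := by
        rw [Real.rpow_def_of_pos (by norm_num), Real.rpow_def_of_pos (by linarith)]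
        congr 1
        ring

open Classical in
/-- all characters of the primes `≤ A log log x` prescribed, all but `K` elements of every
independent set in `[-x^η, x^η]` of index a power of `2` -/
theorem window {K : ℕ} {c η : ℝ} (hc : 0 < c) (hcore : CoreProp K c η) (A : ℝ) (hA : 0 < A) :
    ∃ x₀ : ℕ, ∀ x : ℕ, x₀ ≤ x → ∀ T : Set ℕ,
      x / (log x) ^ (A * log 4 + 3) ≤ (((range (x + 1)).filter (fun p => p.Prime ∧
        (∀ l : ℕ, l.Prime → (l : ℝ) ≤ A * log (log x) → (IsSquare (l : ZMod p) ↔ l ∉ T)) ∧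
        PG K ((x : ℝ) ^ η) p)).card : ℝ) := by
  have h4 : (0 : ℝ) < log 4 := Real.log_pos (by norm_num)
  set A' : ℝ := A * log 4 + 1 with hA'
  have hA'0 : 0 < A' := by positivity
  obtain ⟨x₁, h1⟩ := hcore A' hA'0
  have hcast : Tendsto (fun x : ℕ => (x : ℝ)) atTop atTop := tendsto_natCast_atTop_atTop
  have hlog : Tendsto (fun x : ℕ => log (x : ℝ)) atTop atTop := tendsto_log_atTop.comp hcast
  have e1 : ∀ᶠ x : ℕ in atTop, 24 ≤ log (x : ℝ) := hlog.eventually_ge_atTop _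
  have e2 : ∀ᶠ x : ℕ in atTop, 8 / c ≤ log (x : ℝ) := hlog.eventually_ge_atTop _
  have e3 : ∀ᶠ x : ℕ in atTop, (240 : ℝ) ≤ x := hcast.eventually_ge_atTop _
  obtain ⟨x₂, h2⟩ := eventually_atTop.1 (e1.and (e2.and e3))
  refine ⟨max x₁ x₂, fun x hx T => ?_⟩
  obtain ⟨f1, f2, f3⟩ := h2 x ((le_max_right _ _).trans hx)
  obtain ⟨Gx, hGx, hcount⟩ := h1 x ((le_max_left _ _).trans hx)
  set L : ℝ := log x with hL
  have hL0 : 0 < L := by linarith
  have hL1 : 1 ≤ L := by linarith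
  set y : ℕ := ⌊A * log L⌋₊ with hy
  set S : Finset ℕ := (range (y + 1)).filter (fun l => l.Prime ∧ 5 ≤ l) with hS
  obtain ⟨b, hadm, hb⟩ := cls24 T
  have h4y : (4 : ℝ) ^ y ≤ L ^ (A * log 4) := four_pow_le hA hL1
  have hSp : ∀ l ∈ S, l.Prime ∧ 5 ≤ l ∧ ¬ l ∣ 24 := by
    intro l hl
    rw [hS, Finset.mem_filter] at hl
    refine ⟨hl.2.1, hl.2.2, fun hd => ?_⟩
    have h1 : l ∣ 2 ^ 3 * 3 := by simpa using hd
    rcases (Nat.Prime.dvd_mul hl.2.1).1 h1 with h2 | h2
    · have := Nat.le_of_dvd (by norm_num) (hl.2.1.dvd_of_dvd_pow h2)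
      omega
    · have := Nat.le_of_dvd (by norm_num) h2
      omega
  have hprod : ((24 * ∏ l ∈ S, l : ℕ) : ℝ) ≤ L ^ A' := by
    have h5 : ((∏ l ∈ S, l : ℕ) : ℝ) ≤ (4 : ℝ) ^ y := by
      exact_mod_cast prod_le_four_pow y
    have h6 : L ^ A' = L * L ^ (A * log 4) := by
      rw [hA', Real.rpow_add hL0, Real.rpow_one, mul_comm]
    have h7 : (0 : ℝ) ≤ L ^ (A * log 4) := Real.rpow_nonneg hL0.le _
    calc ((24 * ∏ l ∈ S, l : ℕ) : ℝ) = 24 * ((∏ l ∈ S, l : ℕ) : ℝ) := by push_cast; ring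
      _ ≤ 24 * L ^ (A * log 4) := by linarith
      _ ≤ L * L ^ (A * log 4) := mul_le_mul_of_nonneg_right f1 h7
      _ = L ^ A' := h6.symm
  have h5 := hcount (S.filter (fun l => l ∈ T)) S 24 b (by norm_num) (by norm_num) hadm hSp hprod
  have hScard : S.card ≤ y := by
    have h6 : S ⊆ Finset.Icc 1 y := by
      intro l hl
      rw [hS, Finset.mem_filter, Finset.mem_range] at hl
      rw [Finset.mem_Icc]
      omega
    have h7 := Finset.card_le_card h6
    rwa [Nat.card_Icc, Nat.add_sub_cancel] at h7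
  have h4S : (4 : ℝ) ^ S.card ≤ L ^ (A * log 4) :=
    (pow_le_pow_right₀ (by norm_num) hScard).trans h4y
  have htot : (Nat.totient 24 : ℝ) = 8 := by
    have : Nat.totient 24 = 8 := by decide
    rw [this]
    norm_num
  have hx0 : (0 : ℝ) ≤ x := Nat.cast_nonneg _
  have hlow : (x : ℝ) / L ^ (A * log 4 + 3) ≤
      c / 4 ^ S.card * (x / (Nat.totient 24 * L ^ 2)) := by
    rw [htot]
    have h8 : L ^ (A * log 4 + 3) = L ^ (A * log 4) * (L * L ^ 2) := by
      rw [Real.rpow_add hL0]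
      congr 1
      rw [show (3 : ℝ) = ((3 : ℕ) : ℝ) by norm_num, Real.rpow_natCast]
      ring
    have h9 : 8 ≤ c * L := by
      rw [div_le_iff₀ hc] at f2
      linarith
    have hpos1 : (0 : ℝ) < 4 ^ S.card := by positivity
    have hpos2 : (0 : ℝ) < L ^ 2 := by positivity
    rw [h8, div_mul_div_comm, div_le_div_iff₀ (by positivity) (by positivity)]
    have h10 : (4 : ℝ) ^ S.card * (8 * L ^ 2) ≤ L ^ (A * log 4) * ((c * L) * L ^ 2) := by
      apply mul_le_mul h4S (mul_le_mul_of_nonneg_right h9 hpos2.le) (by positivity)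
      exact Real.rpow_nonneg hL0.le _
    calc (x : ℝ) * (4 ^ S.card * (8 * L ^ 2)) ≤ x * (L ^ (A * log 4) * ((c * L) * L ^ 2)) :=
          mul_le_mul_of_nonneg_left h10 hx0
      _ = c * x * (L ^ (A * log 4) * (L * L ^ 2)) := by ring
  refine (hlow.trans h5).trans (Nat.cast_le.2 (Finset.card_le_card fun p hp => ?_))
  simp only [Finset.mem_filter, Finset.mem_range] at hp ⊢
  obtain ⟨hpG, hpb, hpS⟩ := hp
  obtain ⟨g1, g2, g3, g4⟩ := hGx p hpG
  have hp24 : 24 < p := by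
    have : (24 : ℝ) < p := by linarith
    exact_mod_cast this
  refine ⟨by omega, g2, fun l hl hly => ?_, g4⟩
  by_cases hl5 : 5 ≤ l
  · have hlS : l ∈ S := by
      rw [hS, Finset.mem_filter, Finset.mem_range]
      refine ⟨?_, hl, hl5⟩
      have : l ≤ y := Nat.le_floor hly
      omega
    rw [hpS l hlS]
    constructor
    · intro h h'
      exact h ⟨hlS, h'⟩
    · intro h h'
      exact h h'.2
  · have h2l := hl.two_le
    have hl4 : l ≠ 4 := by
      rintro rfl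
      exact absurd hl (by norm_num)
    have hl23 : l = 2 ∨ l = 3 := by omega
    rcases hl23 with rfl | rfl
    · have := (hb p g2 hp24 hpb).1
      exact_mod_cast this
    · have := (hb p g2 hp24 hpb).2
      exact_mod_cast this

open Classical in
/-- pigeonhole over the subsets with at most `K` elements, for one set of primes -/
theorem pigeonAt {α : Type*} (E : Finset α) (K : ℕ) (P : α → ℕ → Prop) (A : Finset ℕ)
    (h : ∀ p ∈ A, (E.filter (fun a => ¬ P a p)).card ≤ K) :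
    ∃ E' : Finset α, E' ⊆ E ∧ E'.card ≤ K ∧
      (A.card : ℝ) ≤ 2 ^ E.card * ((A.filter (fun p => ∀ a ∈ E, a ∉ E' → P a p)).card : ℝ) := by
  by_contra hcon
  push Not at hcon
  set S : Finset (Finset α) := E.powerset.filter (fun E' => E'.card ≤ K) with hS
  have hcov : A ⊆ S.biUnion (fun E' => A.filter (fun p => ∀ a ∈ E, a ∉ E' → P a p)) := by
    intro p hp
    rw [mem_biUnion]
    refine ⟨E.filter (fun a => ¬ P a p), ?_, ?_⟩
    · rw [hS, Finset.mem_filter, mem_powerset]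
      exact ⟨filter_subset _ _, h p hp⟩
    · rw [Finset.mem_filter]
      refine ⟨hp, fun a ha hna => ?_⟩
      by_contra hcc
      exact hna (Finset.mem_filter.2 ⟨ha, hcc⟩)
  have h2 : (A.card : ℝ) ≤
      ∑ E' ∈ S, ((A.filter (fun p => ∀ a ∈ E, a ∉ E' → P a p)).card : ℝ) := by
    exact_mod_cast (card_le_card hcov).trans card_biUnion_le
  have hSne : S.Nonempty := by
    refine ⟨∅, ?_⟩
    rw [hS, Finset.mem_filter, mem_powerset]
    exact ⟨empty_subset _, by simp⟩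
  have hN : (0 : ℝ) < 2 ^ E.card := by positivity
  have h3 : ∑ E' ∈ S, ((A.filter (fun p => ∀ a ∈ E, a ∉ E' → P a p)).card : ℝ) <
      ∑ _E' ∈ S, ((A.card : ℝ) / 2 ^ E.card) := by
    refine Finset.sum_lt_sum_of_nonempty hSne fun E' hE' => ?_
    rw [hS, Finset.mem_filter, mem_powerset] at hE'
    rw [lt_div_iff₀ hN, mul_comm]
    exact hcon E' hE'.1 hE'.2
  rw [sum_const, nsmul_eq_mul] at h3
  have h4 : (S.card : ℝ) ≤ 2 ^ E.card := by
    have : S.card ≤ 2 ^ E.card := by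
      rw [← card_powerset]
      exact card_le_card (filter_subset _ _)
    exact_mod_cast this
  have h5 : (S.card : ℝ) * ((A.card : ℝ) / 2 ^ E.card) ≤
      2 ^ E.card * ((A.card : ℝ) / 2 ^ E.card) :=
    mul_le_mul_of_nonneg_right h4 (by positivity)
  have h6 : (2 : ℝ) ^ E.card * ((A.card : ℝ) / 2 ^ E.card) = A.card := by
    field_simp
  linarith

lemma ev_loglog_le {η : ℝ} (hη : 0 < η) (A : ℝ) :
    ∀ᶠ x : ℕ in atTop, A * log (log x) ≤ (x : ℝ) ^ η := by
  have hcast : Tendsto (fun x : ℕ => (x : ℝ)) atTop atTop := tendsto_natCast_atTop_atTop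
  have hlog : Tendsto (fun x : ℕ => log (x : ℝ)) atTop atTop := tendsto_log_atTop.comp hcast
  have h2 : Tendsto (fun L : ℝ => exp (η * L) - A * log L) atTop atTop := by
    have h3 : (fun L : ℝ => A * log L) =o[atTop] (fun L : ℝ => exp (η * L)) := by
      have h4 : (fun L : ℝ => log L) =o[atTop] (fun L : ℝ => L) := isLittleO_log_id_atTop
      have h5 : (fun L : ℝ => L) =o[atTop] (fun L : ℝ => exp (η * L)) := by
        have := isLittleO_pow_exp_pos_mul_atTop (k := 1) hη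
        simpa using this
      exact (h4.trans h5).const_mul_left A
    have h6 : Tendsto (fun L : ℝ => exp (η * L)) atTop atTop :=
      tendsto_exp_atTop.comp (tendsto_id.const_mul_atTop hη)
    have h7 := h3.def (c := 1 / 2) (by norm_num)
    refine tendsto_atTop_mono' _ ?_ (h6.const_mul_atTop (r := 1 / 2) (by norm_num))
    filter_upwards [h7] with L hL
    rw [Real.norm_eq_abs, Real.norm_eq_abs, abs_of_pos (exp_pos _)] at hL
    have := le_abs_self (A * log L)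
    linarith
  have h8 := (h2.comp hlog).eventually_ge_atTop 0
  filter_upwards [h8, hcast.eventually_gt_atTop 0] with x hx hx0
  simp only [Function.comp] at hx
  rw [Real.rpow_def_of_pos hx0, mul_comm (log (x : ℝ)) η]
  linarith

open Classical in
/-- at a fixed `x`: the exceptional set -/
theorem roots_at {K : ℕ} (M Y : ℝ) (hM : 0 ≤ M) (hMY : M ≤ Y) (T : Set ℕ) (B : Finset ℕ)
    (hB : ∀ p ∈ B, p.Prime ∧ (∀ l : ℕ, l.Prime → (l : ℝ) ≤ M → (IsSquare (l : ZMod p) ↔ l ∉ T)) ∧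
      PG K Y p) :
    ∃ E : Finset ℕ, (∀ l ∈ E, l.Prime ∧ l ∈ T ∧ (l : ℝ) ≤ M) ∧ E.card ≤ K ∧
      (B.card : ℝ) ≤ 4 ^ (⌊M⌋₊) * ((B.filter (fun p => ∀ l : ℕ, l.Prime → (l : ℝ) ≤ M →
          (l ∈ T → l ∉ E → orderOf (l : ZMod p) = p - 1) ∧
          (l ∉ T → IsSquare (l : ZMod p)))).card : ℝ) := by
  set y : ℕ := ⌊M⌋₊ with hy
  set F : Finset ℕ := (Finset.Icc 1 y).filter (fun l => l.Prime ∧ l ∈ T) with hF
  have hFm : ∀ l, l ∈ F ↔ (1 ≤ l ∧ l ≤ y) ∧ l.Prime ∧ l ∈ T := by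
    intro l
    rw [hF, Finset.mem_filter, Finset.mem_Icc]
  have hFy : ∀ l ∈ F, (l : ℝ) ≤ M := fun l hl => (Nat.le_floor_iff hM).1 ((hFm l).1 hl).1.2
  have hFcard : F.card ≤ y := by
    have h7 := Finset.card_le_card (Finset.filter_subset (fun l => l.Prime ∧ l ∈ T)
      (Finset.Icc 1 y))
    rwa [Nat.card_Icc, Nat.add_sub_cancel] at h7
  clear_value F
  obtain ⟨E, e1, e2, e3⟩ := pigeonAt F K (fun (l p : ℕ) => orderOf (l : ZMod p) = p - 1) B (by
    intro p hp
    obtain ⟨hpp, hsq, hPG⟩ := hB p hp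
    have h5 := hPG (F.map ⟨fun l : ℕ => (l : ℤ), Nat.cast_injective⟩)
      (indep_primes F (fun l hl => ((hFm l).1 hl).2.1)) (by
        intro a ha
        rw [Finset.mem_map] at ha
        obtain ⟨l, hl, rfl⟩ := ha
        simp only [Function.Embedding.coeFn_mk, Int.cast_natCast]
        rw [abs_of_nonneg (Nat.cast_nonneg _)]
        exact (hFy l hl).trans hMY)
    refine le_trans ?_ h5
    rw [← Finset.card_map ⟨fun l : ℕ => (l : ℤ), Nat.cast_injective⟩]
    apply Finset.card_le_card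
    intro a ha
    rw [Finset.mem_map] at ha
    obtain ⟨l, hl, rfl⟩ := ha
    simp only [Finset.mem_filter] at hl
    rw [Finset.mem_filter, Finset.mem_map]
    refine ⟨⟨l, hl.1, rfl⟩, fun hind => hl.2 ?_⟩
    have hl1 := (hFm l).1 hl.1
    have h8 := primroot_of p hpp (l : ℤ) hind (by
      rw [Int.cast_natCast, hsq l hl1.2.1 (hFy l hl.1)]
      exact not_not.2 hl1.2.2)
    rw [Int.cast_natCast] at h8
    exact h8)
  refine ⟨E, fun l hl => ?_, e2, e3.trans ?_⟩
  · have hlF := e1 hl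
    exact ⟨((hFm l).1 hlF).2.1, ((hFm l).1 hlF).2.2, hFy l hlF⟩
  · have h2F : (2 : ℝ) ^ F.card ≤ 4 ^ y :=
      (pow_le_pow_right₀ (by norm_num) hFcard).trans
        (pow_le_pow_left₀ (by norm_num) (by norm_num) y)
    refine mul_le_mul h2F (Nat.cast_le.2 (Finset.card_le_card fun p hp => ?_))
      (Nat.cast_nonneg _) (by positivity)
    simp only [Finset.mem_filter] at hp ⊢
    obtain ⟨-, g3, -⟩ := hB p hp.1
    refine ⟨hp.1, fun l hl hlA => ⟨fun hlT hlE => hp.2 l ?_ hlE, fun hlT => ?_⟩⟩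
    · exact (hFm l).2 ⟨⟨hl.one_lt.le, Nat.le_floor hlA⟩, hl, hlT⟩
    · exact (g3 l hl hlA).2 hlT

open Classical in
/-- every subset of the primes `≤ A log log x`, up to `K` elements, is the set of primitive
roots among these primes, for many `p` -/
theorem window_roots {K : ℕ} {c η : ℝ} (hc : 0 < c) (hη : 0 < η) (hcore : CoreProp K c η)
    (A : ℝ) (hA : 0 < A) :
    ∃ x₀ : ℕ, ∀ x : ℕ, x₀ ≤ x → ∀ T : Set ℕ, ∃ E : Finset ℕ,
      (∀ l ∈ E, l.Prime ∧ l ∈ T ∧ (l : ℝ) ≤ A * log (log x)) ∧ E.card ≤ K ∧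
      x / (log x) ^ (2 * A * log 4 + 3) ≤ (((range (x + 1)).filter (fun p => p.Prime ∧
        ∀ l : ℕ, l.Prime → (l : ℝ) ≤ A * log (log x) →
          (l ∈ T → l ∉ E → orderOf (l : ZMod p) = p - 1) ∧
          (l ∉ T → IsSquare (l : ZMod p)))).card : ℝ) := by
  obtain ⟨x₁, h1⟩ := window hc hcore A hA
  have hcast : Tendsto (fun x : ℕ => (x : ℝ)) atTop atTop := tendsto_natCast_atTop_atTop
  have hlog : Tendsto (fun x : ℕ => log (x : ℝ)) atTop atTop := tendsto_log_atTop.comp hcast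
  have e1 : ∀ᶠ x : ℕ in atTop, 1 ≤ log (x : ℝ) := hlog.eventually_ge_atTop _
  obtain ⟨x₂, h2⟩ := eventually_atTop.1 (e1.and (ev_loglog_le hη A))
  refine ⟨max x₁ x₂, fun x hx T => ?_⟩
  obtain ⟨f1, f2⟩ := h2 x ((le_max_right _ _).trans hx)
  have h3 := h1 x ((le_max_left _ _).trans hx) T
  have hL0 : 0 < log (x : ℝ) := by linarith
  have hly : 0 ≤ A * log (log x) := mul_nonneg hA.le (Real.log_nonneg f1)
  obtain ⟨E, e1, e2, e3⟩ := roots_at (K := K) (A * log (log x)) ((x : ℝ) ^ η) hly f2 T _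
    (fun p hp => (Finset.mem_filter.1 hp).2)
  refine ⟨E, e1, e2, ?_⟩
  have h4 := h3.trans e3
  have h4y : (4 : ℝ) ^ (⌊A * log (log (x : ℝ))⌋₊) ≤ (log (x : ℝ)) ^ (A * log 4) :=
    four_pow_le hA f1
  have h5 := h4.trans (mul_le_mul_of_nonneg_right h4y (Nat.cast_nonneg _))
  have hp1 : 0 < (log (x : ℝ)) ^ (A * log 4) := Real.rpow_pos_of_pos hL0 _
  have hp2 : 0 < (log (x : ℝ)) ^ (A * log 4 + 3) := Real.rpow_pos_of_pos hL0 _
  have h6 : (log (x : ℝ)) ^ (2 * A * log 4 + 3) =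
      (log (x : ℝ)) ^ (A * log 4) * (log (x : ℝ)) ^ (A * log 4 + 3) := by
    rw [← Real.rpow_add hL0]
    congr 1
    ring
  rw [h6, ← div_div, div_div, mul_comm ((log (x : ℝ)) ^ (A * log 4)), ← div_div,
    div_le_iff₀ hp1, mul_comm _ ((log (x : ℝ)) ^ (A * log 4))]
  refine h5.trans (mul_le_mul_of_nonneg_left (Nat.cast_le.2 (Finset.card_le_card fun p hp => ?_))
    hp1.le)
  simp only [Finset.mem_filter] at hp ⊢
  exact ⟨hp.1.1, hp.1.2.1, hp.2⟩

end Vale.Agent.P016.H963
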